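import Vale.Agent.P170W16.Main

open MeasureTheory Filter Topology Vale.Agent.P170 Vale.Agent.P170W

/-- Random `k`-SAT with independent uniform proper clauses on a probability space has a limiting
threshold for every `k ≥ 3`, and every sequence `r_k(n)` as in Friedgut's theorem converges to it. -/
theorem Vale.Agent.Results.P170.ARandomClauses.result (k : ℕ) (hk : 3 ≤ k) :
    (∀ n, Nat.card (PClause k n) = 2 ^ k * n.choose k) ∧
    (∀ n, k ≤ n → ∃ (Ω : Type) (_ : MeasurableSpace Ω) (P : Measure Ω)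
      (S : ℕ → Ω → KSet k n) (e : ℕ → Fin n → Ω → Bool), IsSetsSigns P S e) ∧
    (∀ (n : ℕ) (Ω : Type) [MeasurableSpace Ω] (P : Measure Ω),
      (∀ (S : ℕ → Ω → KSet k n) (e : ℕ → Fin n → Ω → Bool), IsSetsSigns P S e →
        IsClauses P fun i ω => clause (S i ω) fun x => e i x ω) ∧
      ∀ C : ℕ → Ω → PClause k n, IsClauses P C → ∀ m, MeasurableSet (SatEvent C m)) ∧
    ∃ α : ℝ, ∀ (Ω : Set.Ici k → Type) [∀ n, MeasurableSpace (Ω n)] (P : ∀ n, Measure (Ω n))
      (C : ∀ n : Set.Ici k, ℕ → Ω n → PClause k n), (∀ n, IsClauses (P n) (C n)) →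
      ∀ p : Set.Ici k → ℕ → ℝ, (∀ n m, p n m = (P n).real (SatEvent (C n) m)) →
      IsThreshold p α ∧ (∃ r, IsFriedgut p r) ∧
        ∀ r, IsFriedgut p r → Tendsto r atTop (𝓝 α) :=
  ⟨fun n => Nat.card_eq_fintype_card.trans (card_clause (by omega) n),
    fun _ hn => exists_setsSigns hn,
    fun _ _ _ _ => ⟨fun _ _ h => isClauses_of h, fun _ h m => (sat_eq (by omega) h m).1⟩,
    main k hk⟩
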